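import Vale.Agent.P334.MathlibUsed

/-!
Instances of metric k-median with rational distances, their binary codes, feasible solutions and
their cost.
-/

namespace Vale.Agent.P334.Final

/-- Data of an instance. The points are the natural numbers below the number of rows of `M`;
`J` lists the clients, `F` the candidate facilities, `k` is the number of facilities that may be
opened; entry `b` of row `a` of `M` is a pair `(p, q)` and means that the distance from `a` to `b`
is `p / q`. -/
structure Inst where
  J : List ℕ
  F : List ℕ
  k : ℕ
  M : List (List (ℕ × ℕ))

/-- The distance from `a` to `b`. -/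
def Inst.dist (I : Inst) (a b : ℕ) : ℚ :=
  (((I.M.getD a []).getD b (0, 1)).1 : ℚ) / ((I.M.getD a []).getD b (0, 1)).2

/-- The data describe an instance: clients and facilities are points without repetition,
`1 ≤ k ≤ |F|`, and the distances form a metric on the points. -/
structure Inst.Valid (I : Inst) : Prop where
  nodup_J : I.J.Nodup
  lt_J : ∀ j ∈ I.J, j < I.M.length
  nodup_F : I.F.Nodup
  lt_F : ∀ i ∈ I.F, i < I.M.length
  one_le : 1 ≤ I.k
  k_le : I.k ≤ I.F.length
  dist_eq_zero : ∀ a < I.M.length, ∀ b < I.M.length, (I.dist a b = 0 ↔ a = b)
  dist_comm : ∀ a < I.M.length, ∀ b < I.M.length, I.dist a b = I.dist b a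
  dist_triangle : ∀ a < I.M.length, ∀ b < I.M.length, ∀ c < I.M.length,
    I.dist a c ≤ I.dist a b + I.dist b c

/-- Feasible solutions: nonempty sets of at most `k` facilities. -/
def Inst.Feasible (I : Inst) (S : Finset ℕ) : Prop :=
  S.Nonempty ∧ S ⊆ I.F.toFinset ∧ S.card ≤ I.k

/-- The cost of a nonempty set `S`: the sum over all clients of the distance to the nearest
element of `S`. -/
def Inst.cost (I : Inst) (S : Finset ℕ) : ℚ :=
  ∑ j ∈ I.J.toFinset, if h : S.Nonempty then S.inf' h (I.dist j) else 0

/-- A pair of words as one word: every bit of the first word is preceded by `true`, then comes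
`false`, then the second word. -/
def pair : List Bool → List Bool → List Bool
  | [], y => false :: y
  | b :: x, y => true :: b :: pair x y

/-- The code of a list, given a code for its entries. -/
def codeList {α : Type} (c : α → List Bool) : List α → List Bool
  | [] => []
  | a :: l => pair (c a) (codeList c l)

/-- The code of an instance; all numbers are written in binary. -/
def Inst.code (I : Inst) : List Bool :=
  pair (codeList Nat.bits I.J) (pair (codeList Nat.bits I.F) (pair I.k.bits
    (codeList (codeList fun e => pair e.1.bits e.2.bits) I.M)))

/-- Input of a randomized algorithm: an instance and a string of random bits. -/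
structure Input where
  inst : Inst
  coins : List Bool

/-- The code of an input. -/
def Input.code (x : Input) : List Bool := pair x.inst.code x.coins

end Vale.Agent.P334.Final
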